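import Vale.Agent.P184Z.Slow
import Vale.Agent.P184Z.StrA

/-!
# Families of functions indexed by the labels, as vector valued functions
-/

open scoped ContDiff RealInnerProductSpace
open MeasureTheory

set_option linter.unusedSectionVars false

noncomputable section

namespace Vale.Agent.P184Z.Br

open Par Slow

theorem abs_ord_le {V : Type} [NormedAddCommGroup V] [InnerProductSpace ℝ V] [CompleteSpace V]
    {f g : ℝ → V} (hf : Continuous f) (hg : Continuous g) : |ord f g| ≤ L1 f * L1 g := by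
  have hc : Continuous fun t => ∫ r in (0 : ℝ)..t, g r :=
    continuous_iff_continuousAt.2 fun t => (hg.integral_hasStrictDerivAt 0 t).hasDerivAt.continuousAt
  rw [L1, ← intervalIntegral.integral_mul_const]
  refine (intervalIntegral.abs_integral_le_integral_abs zero_le_one).trans
    (intervalIntegral.integral_mono_on zero_le_one
      (Continuous.intervalIntegrable (by fun_prop) _ _)
      (Continuous.intervalIntegrable (by fun_prop) _ _) fun t ht => ?_)
  refine (abs_real_inner_le_norm _ _).trans (mul_le_mul_of_nonneg_left ?_ (norm_nonneg _))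
  refine (intervalIntegral.norm_integral_le_integral_norm ht.1).trans ?_
  exact intervalIntegral.integral_mono_interval le_rfl ht.1 ht.2
    (Filter.Eventually.of_forall fun _ => norm_nonneg _) (hg.norm.intervalIntegrable _ _)

variable {ι : Type} [Fintype ι] {n : ℕ}

theorem inner_eq (x y : EuclideanSpace ℝ ι) : ⟪x, y⟫ = ∑ l, x l * y l := by
  simp [PiLp.inner_apply, mul_comm]

theorem norm_sq_eq (x : EuclideanSpace ℝ ι) : ‖x‖ ^ 2 = ∑ l, x l ^ 2 := by
  rw [← real_inner_self_eq_norm_sq, inner_eq]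
  simp only [sq]

theorem norm_eq (x : EuclideanSpace ℝ ι) : ‖x‖ = √(∑ l, x l ^ 2) := by
  rw [← norm_sq_eq, Real.sqrt_sq (norm_nonneg x)]

theorem abs_le_norm (x : EuclideanSpace ℝ ι) (l : ι) : |x l| ≤ ‖x‖ := PiLp.norm_apply_le x l

theorem int_apply {f : ℝ → EuclideanSpace ℝ ι} (hf : Continuous f) (a b : ℝ) (l : ι) :
    (∫ t in a..b, f t) l = ∫ t in a..b, f t l :=
  ((EuclideanSpace.proj l : EuclideanSpace ℝ ι →L[ℝ] ℝ).intervalIntegral_comp_comm
    (hf.intervalIntegrable a b)).symm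

/-- the vector with coordinates `f l` -/
def vec (f : ι → En n → ℝ) (z : En n) : EuclideanSpace ℝ ι := WithLp.toLp 2 fun l => f l z

theorem vec_apply (f : ι → En n → ℝ) (z : En n) (l : ι) : vec f z l = f l z := rfl

variable {f : ι → En n → ℝ}

theorem sm_vec (hf : ∀ l, ContDiff ℝ ∞ (f l)) : Sm (vec f) := contDiff_euclidean.2 hf

theorem dl_apply (hf : ∀ l, ContDiff ℝ ∞ (f l)) (s v : Vn n) (t : ℝ) (l : ι) :
    dl (vec f) s v t l = pd (f l) (s, t) v :=
  (D_clm_comp (EuclideanSpace.proj l : EuclideanSpace ℝ ι →L[ℝ] ℝ) (sm_vec hf) _ _).symm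

theorem WW_apply (hf : ∀ l, ContDiff ℝ ∞ (f l)) (M : ℝ) (z : En n) (l : ι) :
    Slow.WW M (vec f) z l = ∫ r in (0 : ℝ)..M, (r / M - 1 / 2) * f l (z.1, z.2 + r) := by
  have hc := (sm_vec hf).cont_time z.1
  exact int_apply (f := fun r => (r / M - 1 / 2) • vec f (z.1, z.2 + r))
    ((show Continuous fun r : ℝ => r / M - 1 / 2 by fun_prop).smul
      (hc.comp (continuous_const.add continuous_id))) 0 M l

theorem L1_dl (hf : ∀ l, ContDiff ℝ ∞ (f l)) (s v : Vn n) :
    L1 (dl (vec f) s v) = ∫ τ in (0 : ℝ)..1, √(∑ l, pd (f l) (s, τ) v ^ 2) := by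
  simp only [L1, norm_eq, dl_apply hf]

theorem bS_eq (hf : ∀ l, ContDiff ℝ ∞ (f l)) (M : ℝ) (s v : Vn n) :
    bS M (vec f) v s = ∫ τ in (0 : ℝ)..1, ∑ l,
      (∫ r in (0 : ℝ)..M, (r / M - 1 / 2) * f l (s, τ + r)) * pd (f l) (s, τ) v := by
  refine intervalIntegral.integral_congr fun τ _ => ?_
  rw [real_inner_comm, inner_eq]
  exact Finset.sum_congr rfl fun l _ =>
    congrArg₂ (· * ·) (WW_apply hf M (s, τ) l) (dl_apply hf s v τ l)

theorem ord_sub (hf : ∀ l, ContDiff ℝ ∞ (f l)) (s v w : Vn n) :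
    ord (dl (vec f) s w) (dl (vec f) s v) - ord (dl (vec f) s v) (dl (vec f) s w) =
      ∫ τ in (0 : ℝ)..1, ∑ l, ((∫ r in (0 : ℝ)..τ, pd (f l) (s, r) v) * pd (f l) (s, τ) w -
        (∫ r in (0 : ℝ)..τ, pd (f l) (s, r) w) * pd (f l) (s, τ) v) := by
  have hc := continuous_dl (sm_vec hf) s
  have hp : ∀ v, Continuous fun t => ∫ r in (0 : ℝ)..t, dl (vec f) s v r := fun v =>
    continuous_iff_continuousAt.2 fun t =>
      ((hc v).integral_hasStrictDerivAt 0 t).hasDerivAt.continuousAt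
  rw [ord, ord, ← intervalIntegral.integral_sub (((hc w).inner (hp v)).intervalIntegrable _ _)
    (((hc v).inner (hp w)).intervalIntegrable _ _)]
  refine intervalIntegral.integral_congr fun τ _ => ?_
  simp only [inner_eq, int_apply (hc _), dl_apply hf, Finset.sum_sub_distrib, mul_comm]

variable {M : ℕ} [NeZero M] {C : Type} [Fintype C]

/-- the shift of the coordinates -/
def sig (M : ℕ) [NeZero M] (C : Type) [Fintype C] :
    EuclideanSpace ℝ (Lb M C) →ₗᵢ[ℝ] EuclideanSpace ℝ (Lb M C) :=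
  (LinearIsometryEquiv.piLpCongrLeft 2 ℝ ℝ (SA.shfE M C)).toLinearIsometry

theorem sig_apply (y : EuclideanSpace ℝ (Lb M C)) (l : Lb M C) : sig M C y (shf l) = y l := by
  change y ((SA.shfE M C).symm (SA.shfE M C l)) = y l
  rw [Equiv.symm_apply_apply]

theorem tw_vec {f : Lb M C → En n → ℝ} (hf : ∀ l, ContDiff ℝ ∞ (f l))
    (hp : ∀ l s t, f (shf l) (s, t + 1) = f l (s, t)) : Tw (sig M C) M (vec f) where
  sm := sm_vec hf
  one s t := by
    ext l
    obtain ⟨l, rfl⟩ := (SA.shfE M C).surjective l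
    rw [SA.shfE_apply, sig_apply, vec_apply, vec_apply, hp]
  per s t := by
    have h : ∀ (k : ℕ) (l : Lb M C), f (l.1 + k, l.2) (s, t + k) = f l (s, t) := by
      intro k l
      induction k with
      | zero => simp
      | succ k ih => rw [← ih, ← hp (l.1 + k, l.2), shf]; push_cast; simp only [add_assoc]
    ext l
    simpa [vec_apply] using h M l

/-- vectors, which occupy at most half of the residues, are far from the invariant vectors -/
theorem inner_sq_le (y u : EuclideanSpace ℝ (Lb M C)) (hy : sig M C y = y)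
    (hu : ∀ c : C, (∑ r : ZMod M, u (r, c)) ^ 2 ≤ M / 2 * ∑ r : ZMod M, u (r, c) ^ 2) :
    ⟪y, u⟫ ^ 2 ≤ ‖y‖ ^ 2 * ‖u‖ ^ 2 / 2 := by
  have h1 : ∀ (k : ℕ) (c : C), y (k, c) = y (0, c) := by
    intro k c
    induction k with
    | zero => simp
    | succ k ih => rw [← ih, ← sig_apply y (k, c), hy, shf]; push_cast; rfl
  have h2 : ∀ (r : ZMod M) (c : C), y (r, c) = y (0, c) := fun r c => by
    rw [← h1 r.val c, ZMod.natCast_zmod_val]
  rw [inner_eq, norm_sq_eq, norm_sq_eq, Fintype.sum_prod_type_right, Fintype.sum_prod_type_right,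
    Fintype.sum_prod_type_right]
  simp only [h2, ← Finset.mul_sum, Finset.sum_const, Finset.card_univ, ZMod.card, nsmul_eq_mul]
  refine (Finset.sum_mul_sq_le_sq_mul_sq _ _ _).trans ?_
  have h3 := Finset.sum_le_sum fun c (_ : c ∈ Finset.univ) => hu c
  rw [← Finset.mul_sum] at h3
  have h4 : 0 ≤ ∑ c : C, y (0, c) ^ 2 := Finset.sum_nonneg fun _ _ => sq_nonneg _
  refine (mul_le_mul_of_nonneg_left h3 h4).trans (le_of_eq ?_)
  ring

/-- the part of low rank -/
theorem low_rank {u : En n → EuclideanSpace ℝ (Lb M C)} (h : Tw (sig M C) M u) (s : Vn n) :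
    ∃ a b : Lb M C ⊕ Lb M C → Vn n → ℝ,
      (∀ k v, |a k v| ≤ M * L1 (dl u s v)) ∧ (∀ k v, |b k v| ≤ M * L1 (dl u s v)) ∧
      (∀ v w, |∑ k, (a k v * b k w - a k w * b k v)| ≤ 4 * M * L1 (dl u s v) * L1 (dl u s w)) ∧
      ∀ v w, D v (bS M u w) s - D w (bS M u v) s =
        ord (dl u s w) (dl u s v) - ord (dl u s v) (dl u s w) +
          ∑ k, (a k v * b k w - a k w * b k v) := by
  have hM : M ≠ 0 := NeZero.ne M
  have hM1 : (1 : ℝ) ≤ M := by exact_mod_cast Nat.pos_of_ne_zero hM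
  have hc := continuous_dl h.sm s
  have h0 : ∀ v, 0 ≤ L1 (dl u s v) := fun v => L1_nonneg _
  have h1 : ∀ v, ‖Wt M (dl u s v) 0‖ ≤ M * L1 (dl u s v) := fun v =>
    norm_Wt_le M (hc v) (h.dl_one s v) 0
  have h2 : ∀ v, ‖∫ t in (0 : ℝ)..1, dl u s v t‖ ≤ L1 (dl u s v) := fun v => norm_int_le _
  have h3 : ∀ v, ‖∫ t in (0 : ℝ)..1, t • dl u s v t‖ ≤ L1 (dl u s v) := fun v =>
    norm_int_smul_le (hc v)
  have h4 : ∀ v, ‖mn M (dl u s v)‖ ≤ L1 (dl u s v) := fun v =>
    norm_mn_le_L1 hM (hc v) (h.dl_one s v)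
  have h5 : ∀ v, L1 (dl u s v) ≤ M * L1 (dl u s v) := fun v => le_mul_of_one_le_left (h0 v) hM1
  have key : ∀ v w, ∑ k : Lb M C ⊕ Lb M C,
      (Sum.elim (fun l v => Wt M (dl u s v) 0 l)
          (fun l v => (∫ t in (0 : ℝ)..1, t • dl u s v t) l) k v *
        Sum.elim (fun l v => (∫ t in (0 : ℝ)..1, dl u s v t) l) (fun l v => mn M (dl u s v) l) k w -
      Sum.elim (fun l v => Wt M (dl u s v) 0 l)
          (fun l v => (∫ t in (0 : ℝ)..1, t • dl u s v t) l) k w *
        Sum.elim (fun l v => (∫ t in (0 : ℝ)..1, dl u s v t) l) (fun l v => mn M (dl u s v) l) k v) =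
      (⟪∫ t in (0 : ℝ)..1, dl u s w t, Wt M (dl u s v) 0⟫ -
        ⟪∫ t in (0 : ℝ)..1, dl u s v t, Wt M (dl u s w) 0⟫) -
      (⟪∫ t in (0 : ℝ)..1, t • dl u s w t, mn M (dl u s v)⟫ -
        ⟪∫ t in (0 : ℝ)..1, t • dl u s v t, mn M (dl u s w)⟫) := by
    intro v w
    rw [real_inner_comm (Wt M (dl u s v) 0), real_inner_comm (Wt M (dl u s w) 0)]
    simp only [Fintype.sum_sum_type, Sum.elim_inl, Sum.elim_inr, inner_eq, Finset.sum_sub_distrib]
    ring
  refine ⟨_, _, ?_, ?_, fun v w => ?_, fun v w => (h.d_bS hM w v s).trans (by rw [key]; ring)⟩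
  · rintro (l | l) v
    · exact (abs_le_norm _ l).trans (h1 v)
    · exact (abs_le_norm _ l).trans ((h3 v).trans (h5 v))
  · rintro (l | l) v
    · exact (abs_le_norm _ l).trans ((h2 v).trans (h5 v))
    · exact (abs_le_norm _ l).trans ((h4 v).trans (h5 v))
  · rw [key]
    have a1 : ∀ v w, |⟪∫ t in (0 : ℝ)..1, dl u s w t, Wt M (dl u s v) 0⟫| ≤
        L1 (dl u s w) * (M * L1 (dl u s v)) := fun v w =>
      (abs_real_inner_le_norm _ _).trans (mul_le_mul (h2 w) (h1 v) (norm_nonneg _) (h0 w))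
    have a2 : ∀ v w, |⟪∫ t in (0 : ℝ)..1, t • dl u s w t, mn M (dl u s v)⟫| ≤
        L1 (dl u s w) * (M * L1 (dl u s v)) := fun v w =>
      (abs_real_inner_le_norm _ _).trans
        (mul_le_mul (h3 w) ((h4 v).trans (h5 v)) (norm_nonneg _) (h0 w))
    have b1 := abs_le.1 (a1 v w)
    have b2 := abs_le.1 (a1 w v)
    have b3 := abs_le.1 (a2 v w)
    have b4 := abs_le.1 (a2 w v)
    rw [abs_le]
    constructor <;> linarith [b1.1, b1.2, b2.1, b2.2, b3.1, b3.2, b4.1, b4.2]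

end Vale.Agent.P184Z.Br
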